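import Vale.Agent.P269.G1I.T.H521_SrB
import Vale.Agent.P269.G1I.BSpec
import Vale.Agent.P269.G1I.H598.Ser

/-!
# Tools for series over a finite family of insertions: recursion and WDVV
-/

namespace Vale.Agent.P269.G1.H410

open Finset.HasAntidiagonal (antidiagonal)
open Vale.Agent.P269.CI Vale.Agent.P269.G1

variable {X : CompleteIntersection} {F : ℕ → ℕ → List (Ins X) → ℂ} {n : ℕ} (E : Fam X n)

lemma ins_isAmb (i : Fin n) : IsAmb X (E.ins i) := ⟨_, rfl⟩

lemma isAmb_ins (L : List (Fin n)) : ∀ x ∈ L.map E.ins, IsAmb X x := by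
  intro x hx
  obtain ⟨j, _, rfl⟩ := List.mem_map.1 hx
  exact ins_isAmb E j

lemma isAmb_cons' {x : Ins X} {L : List (Ins X)} (hx : IsAmb X x) (hL : ∀ y ∈ L, IsAmb X y) :
    ∀ y ∈ x :: L, IsAmb X y := by
  intro y hy
  rcases List.mem_cons.1 hy with rfl | h
  · exact hx
  · exact hL y h

lemma par_isAmb {x : Ins X} (hx : IsAmb X x) : par X x.1 = false := by
  obtain ⟨j, hj⟩ := hx
  rw [hj]
  rfl

lemma sgnL_ins (a : Bool) (L : List (Fin n)) : sgnL X a (L.map E.ins) = 1 := by
  rw [sgnL, List.map_map]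
  apply List.prod_eq_one
  intro z hz
  obtain ⟨j, _, rfl⟩ := List.mem_map.1 hz
  simp [sgn, par, Fam.ins]

lemma shuffle_ins (L : List (Fin n)) : ∀ (A B : List (Ins X) → ℂ),
    shuffle X (L.map E.ins) A B =
      shf L (fun M => A (M.map E.ins)) (fun M => B (M.map E.ins)) := by
  induction L with
  | nil => intro A B; rfl
  | cons i L ih =>
    intro A B
    rw [List.map_cons, shuffle, shf, ih, ih]
    congr 1
    apply H598.shf_congr
    · intro M
      have : sgnL X (par X (E.ins i).1) (M.map E.ins) = 1 := sgnL_ins E _ _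
      rw [this, one_mul]
    · intro M
      rfl

lemma shuffle_congrB (L : List (Fin n)) {A A' B B' : List (Ins X) → ℂ}
    (hA : ∀ M : List (Fin n), A (M.map E.ins) = A' (M.map E.ins))
    (hB : ∀ M : List (Fin n), B (M.map E.ins) = B' (M.map E.ins)) :
    shuffle X (L.map E.ins) A B = shuffle X (L.map E.ins) A' B' := by
  rw [shuffle_ins, shuffle_ins]
  exact H598.shf_congr L hA hB

lemma shuffle_smul_leftB (c : ℂ) (L : List (Ins X)) : ∀ (A B : List (Ins X) → ℂ),
    shuffle X L (fun M => c * A M) B = c * shuffle X L A B := by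
  induction L with
  | nil => intro A B; simp [shuffle, mul_assoc]
  | cons x L ih =>
    intro A B
    rw [shuffle, shuffle, mul_add, ← ih, ← ih]
    congr 2
    funext M
    ring

lemma sr_congr {A B : ℕ → List (Ins X) → ℂ}
    (h : ∀ d (L : List (Fin n)), A d (L.map E.ins) = B d (L.map E.ins)) : sr E A = sr E B := by
  unfold sr
  congr 1
  funext L
  ext d
  simpa using h d L

lemma sr_add (A B : ℕ → List (Ins X) → ℂ) :
    sr E (fun d L => A d L + B d L) = sr E A + sr E B := by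
  rw [sr, sr, sr, ← toSer_add]
  congr 1

lemma sr_smul (c : ℂ) (A : ℕ → List (Ins X) → ℂ) :
    sr E (fun d L => c * A d L) = c • sr E A := by
  refine MvPowerSeries.ext fun α => ?_
  rw [sr, H598.coeff_toSer]
  have h1 : MvPowerSeries.coeff α (c • sr E A) = c • MvPowerSeries.coeff α (sr E A) := rfl
  rw [h1, sr, H598.coeff_toSer, smul_comm]
  congr 1

lemma sr_zero : sr E (fun (_ : ℕ) (_ : List (Ins X)) => (0 : ℂ)) = 0 := by
  have := sr_smul E 0 (fun _ _ => 0)
  simpa using this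

lemma sr_sum {ι : Type*} (s : Finset ι) (A : ι → ℕ → List (Ins X) → ℂ) :
    sr E (fun d L => ∑ i ∈ s, A i d L) = ∑ i ∈ s, sr E (A i) := by
  classical
  induction s using Finset.induction_on with
  | empty => simpa using sr_zero E
  | insert a s ha ih =>
    rw [Finset.sum_insert ha, ← ih, ← sr_add]
    simp only [Finset.sum_insert ha]

lemma sr_swap (hF : IsGW X F) (g : ℕ) (P Q : List (Ins X)) (x y : Ins X) :
    sr E (cor F g (P ++ x :: y :: Q)) =
      sgn (par X x.1) (par X y.1) • sr E (cor F g (P ++ y :: x :: Q)) := by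
  rw [← sr_smul]
  refine sr_congr E fun d L => ?_
  have h1 := hF.symm g d P (Q ++ L.map E.ins) x y
  simpa [cor] using h1

lemma sr_swap_even (hF : IsGW X F) (g : ℕ) (P Q : List (Ins X)) (x y : Ins X)
    (h : IsAmb X x ∨ IsAmb X y) :
    sr E (cor F g (P ++ x :: y :: Q)) = sr E (cor F g (P ++ y :: x :: Q)) := by
  rw [sr_swap E hF]
  have h2 : sgn (par X x.1) (par X y.1) = 1 := by
    rcases h with h | h
    · rw [par_isAmb h]; simp [sgn]
    · rw [par_isAmb h]; simp [sgn]
  rw [h2, one_smul]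

/-- topological recursion in genus zero -/
lemma trr_sr (hF : IsGW X F) (a : Ix X) (m : ℕ) (x y : Ins X) :
    sr E (cor F 0 [(a, m + 1), x, y]) = ∑ α, ∑ β, pairingInv X α β •
      (sr E (cor F 0 [(β, 0), x, y]) * sr E (cor F 0 [(a, m), (α, 0)])) := by
  have h1 : ∀ α β, pairingInv X α β •
      (sr E (cor F 0 [(β, 0), x, y]) * sr E (cor F 0 [(a, m), (α, 0)])) =
      sr E (fun d L => pairingInv X α β *
        mulS (cor F 0 [(β, 0), x, y]) (cor F 0 [(a, m), (α, 0)]) d L) := by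
    intro α β
    rw [← sr_mulS E _ _ (symF_cor E hF 0 _) (symF_cor E hF 0 _), sr_smul]
  simp only [h1]
  simp only [← sr_sum]
  refine sr_congr E fun d L => ?_
  exact hF.trr d a m x y (L.map E.ins)

/-- a single primitive insertion gives zero -/
lemma sr_prim (h1 : IsGenusOne F) (g : ℕ) (v : X.Prim) (m : ℕ) (P : List (Ins X))
    (hP : ∀ x ∈ P, IsAmb X x) : sr E (cor F g ((Sum.inr v, m) :: P)) = 0 := by
  rw [← sr_zero E]
  refine sr_congr E fun d L => ?_
  refine h1.mono1 g d v m (P ++ L.map E.ins) ?_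
  intro x hx
  rcases List.mem_append.1 hx with h | h
  · exact hP x h
  · exact isAmb_ins E L x h

/-- the common function of the two-point functions of two primitive classes -/
noncomputable def LamB (h1 : IsGenusOne F) (m k : ℕ) (P : List (Ins X)) : RB n :=
  sr E (fun d L => Classical.choose h1.mono2 m k d (P ++ L))

lemma sr_prim2 (h1 : IsGenusOne F) (v w : X.Prim) (m k : ℕ) (P : List (Ins X))
    (hP : ∀ x ∈ P, IsAmb X x) :
    sr E (cor F 0 ((Sum.inr v, m) :: (Sum.inr w, k) :: P)) = X.form v w • LamB E h1 m k P := by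
  rw [LamB, ← sr_smul]
  refine sr_congr E fun d L => ?_
  refine Classical.choose_spec h1.mono2 d v w m k (P ++ L.map E.ins) ?_
  intro x hx
  rcases List.mem_append.1 hx with h | h
  · exact hP x h
  · exact isAmb_ins E L x h

lemma sr_prim3 (h1 : IsGenusOne F) (u v w : X.Prim) :
    sr E (cor F 0 [(Sum.inr u, 0), (Sum.inr v, 0), (Sum.inr w, 0)]) = 0 := by
  rw [← sr_zero E]
  exact sr_congr E fun d L => h1.mono3 d u v w _ (isAmb_ins E L)

lemma exists_form_neB (v : X.Prim) : ∃ w, X.form v w ≠ 0 := by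
  by_contra h
  push Not at h
  exact X.form_nondeg (Matrix.det_eq_zero_of_row_eq_zero v (fun j => h j))

lemma SymF_Lam (hF : IsGW X F) (h1 : IsGenusOne F) (v : X.Prim) (m k : ℕ) :
    SymF E (fun d L => Classical.choose h1.mono2 m k d L) := by
  intro d L M h
  obtain ⟨w, hvw⟩ := exists_form_neB v
  have e : ∀ N : List (Fin n), F 0 d ((Sum.inr v, m) :: (Sum.inr w, k) :: N.map E.ins) =
      X.form v w * Classical.choose h1.mono2 m k d (N.map E.ins) := fun N =>
    Classical.choose_spec h1.mono2 d v w m k (N.map E.ins) (isAmb_ins E N)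
  have e2 : F 0 d ((Sum.inr v, m) :: (Sum.inr w, k) :: L.map E.ins) =
      F 0 d ((Sum.inr v, m) :: (Sum.inr w, k) :: M.map E.ins) :=
    symF_cor E hF 0 [(Sum.inr v, m), (Sum.inr w, k)] d L M h
  rw [e, e] at e2
  exact mul_left_cancel₀ hvw e2

/-! ### topological recursion -/

lemma SB_zero (h1 : IsGenusOne F) (c b : Fin (X.dim + 1)) :
    (SB E h1 0).1 c b = if c = b then 1 else 0 := by
  change (1 : Matrix _ _ _) c b = _
  rw [Matrix.one_apply]

lemma SB_succ (h1 : IsGenusOne F) (k : ℕ) (c b : Fin (X.dim + 1)) :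
    (SB E h1 (k + 1)).1 c b = ∑ a : Fin (X.dim + 1),
      pairingInv X (Sum.inl a) (Sum.inl c) • VB E F (Sum.inl b, k) (Sum.inl a, 0) := rfl

/-- topological recursion, ambient class -/
lemma trrB (hF : IsGW X F) (h1 : IsGenusOne F) (a : Fin (X.dim + 1)) (m : ℕ) (y z : Ins X) :
    sr E (cor F 0 [(Sum.inl a, m), y, z]) =
      ∑ i, (SB E h1 m).1 i a * sr E (cor F 0 [hpow X i, y, z]) := by
  cases m with
  | zero =>
    rw [Finset.sum_eq_single a]
    · rw [SB_zero, if_pos rfl, one_mul]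
      rfl
    · intro b _ hb
      rw [SB_zero, if_neg hb, zero_mul]
    · simp
  | succ m =>
    rw [trr_sr E hF (Sum.inl a) m y z, Fintype.sum_sum_type]
    have h0 : ∀ v : X.Prim, sr E (cor F 0 [(Sum.inl a, m), (Sum.inr v, 0)]) = 0 := by
      intro v
      have e1 := sr_swap_even E hF 0 [] [] (Sum.inl a, m) (Sum.inr v, 0) (Or.inl ⟨a, rfl⟩)
      simp only [List.nil_append] at e1
      rw [e1]
      refine sr_prim E h1 0 v 0 _ ?_
      intro x hx
      rcases List.mem_cons.1 hx with h | h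
      · exact ⟨a, by rw [h]⟩
      · simp at h
    have h2 : ∑ v : X.Prim, ∑ β, pairingInv X (Sum.inr v) β •
        (sr E (cor F 0 [(β, 0), y, z]) * sr E (cor F 0 [(Sum.inl a, m), (Sum.inr v, 0)])) = 0 := by
      refine Finset.sum_eq_zero fun v _ => Finset.sum_eq_zero fun β _ => ?_
      rw [h0, mul_zero, smul_zero]
    rw [h2, add_zero]
    have h3 : ∀ l : Fin (X.dim + 1), ∑ β, pairingInv X (Sum.inl l) β •
        (sr E (cor F 0 [(β, 0), y, z]) * sr E (cor F 0 [(Sum.inl a, m), (Sum.inl l, 0)])) =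
        ∑ k : Fin (X.dim + 1), pairingInv X (Sum.inl l) (Sum.inl k) •
          (sr E (cor F 0 [hpow X k, y, z]) *
            sr E (cor F 0 [(Sum.inl a, m), (Sum.inl l, 0)])) := by
      intro l
      rw [Fintype.sum_sum_type]
      have h4 : ∑ v : X.Prim, pairingInv X (Sum.inl l) (Sum.inr v) •
        (sr E (cor F 0 [(Sum.inr v, 0), y, z]) *
          sr E (cor F 0 [(Sum.inl a, m), (Sum.inl l, 0)])) = 0 := by
        refine Finset.sum_eq_zero fun v _ => ?_
        have h7 : pairingInv X (Sum.inl l) (Sum.inr v) = 0 := rfl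
        rw [h7, zero_smul]
      rw [h4, add_zero]
      rfl
    rw [Finset.sum_congr rfl fun l _ => h3 l, Finset.sum_comm]
    refine Finset.sum_congr rfl fun k _ => ?_
    rw [SB_succ, Finset.sum_mul]
    refine Finset.sum_congr rfl fun l _ => ?_
    rw [smul_mul_assoc, VB, mul_comm]

/-- topological recursion, primitive class -/
lemma trrB_prim (hF : IsGW X F) (h1 : IsGenusOne F) (v : X.Prim) (m : ℕ) (y z : Ins X) :
    sr E (cor F 0 [(Sum.inr v, m), y, z]) = (SB E h1 m).2 v *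
      sr E (cor F 0 [(Sum.inr v, 0), y, z]) := by
  cases m with
  | zero =>
    change _ = 1 * _
    rw [one_mul]
  | succ m =>
    rw [trr_sr E hF (Sum.inr v) m y z, Fintype.sum_sum_type]
    have h2 : ∑ l : Fin (X.dim + 1), ∑ β, pairingInv X (Sum.inl l) β •
        (sr E (cor F 0 [(β, 0), y, z]) * sr E (cor F 0 [(Sum.inr v, m), (Sum.inl l, 0)])) = 0 := by
      refine Finset.sum_eq_zero fun l _ => Finset.sum_eq_zero fun β _ => ?_
      rw [sr_prim E h1 0 v m, mul_zero, smul_zero]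
      intro x hx
      rcases List.mem_cons.1 hx with h | h
      · exact ⟨l, by rw [h]⟩
      · simp at h
    rw [h2, zero_add]
    have h3 : ∀ u : X.Prim, ∑ β, pairingInv X (Sum.inr u) β •
        (sr E (cor F 0 [(β, 0), y, z]) * sr E (cor F 0 [(Sum.inr v, m), (Sum.inr u, 0)])) =
        ∑ b : X.Prim, (X.form v u * (Matrix.of X.form)⁻¹ u b) •
          (LamB E h1 m 0 [] * sr E (cor F 0 [(Sum.inr b, 0), y, z])) := by
      intro u
      rw [Fintype.sum_sum_type]
      have h4 : ∑ l : Fin (X.dim + 1), pairingInv X (Sum.inr u) (Sum.inl l) •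
        (sr E (cor F 0 [(Sum.inl l, 0), y, z]) *
          sr E (cor F 0 [(Sum.inr v, m), (Sum.inr u, 0)])) = 0 := by
        refine Finset.sum_eq_zero fun l _ => ?_
        have h7 : pairingInv X (Sum.inr u) (Sum.inl l) = 0 := rfl
        rw [h7, zero_smul]
      rw [h4, zero_add]
      refine Finset.sum_congr rfl fun b _ => ?_
      have h7 : pairingInv X (Sum.inr u) (Sum.inr b) = (Matrix.of X.form)⁻¹ u b := rfl
      rw [sr_prim2 E h1 v u m 0 [] (by simp), mul_smul_comm, smul_smul, h7,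
        mul_comm (X.form v u), mul_comm (LamB E h1 m 0 [])]
    rw [Finset.sum_congr rfl fun u _ => h3 u, Finset.sum_comm]
    simp only [← Finset.sum_smul]
    have h5 : ∀ b, ∑ u, X.form v u * (Matrix.of X.form)⁻¹ u b = if v = b then 1 else 0 := by
      intro b
      have h6 : Matrix.of X.form * (Matrix.of X.form)⁻¹ = 1 :=
        Matrix.mul_nonsing_inv _ (isUnit_iff_ne_zero.2 X.form_nondeg)
      have := congrFun (congrFun h6 v) b
      rw [Matrix.mul_apply, Matrix.one_apply] at this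
      exact this
    simp only [h5]
    rw [Finset.sum_eq_single v]
    · rw [if_pos rfl, one_smul]
      rfl
    · intro b _ hb
      rw [if_neg (Ne.symm hb), zero_smul]
    · simp

/-! ### WDVV -/

/-- one side of WDVV -/
noncomputable def wdB (F : ℕ → ℕ → List (Ins X) → ℂ) (a x y z : Ix X) (d : ℕ)
    (L : List (Ins X)) : ℂ :=
  ∑ α, ∑ β, pairingInv X α β * mulS (cor F 0 [(β, 0), (x, 0), (y, 0)])
    (cor F 0 [(a, 0), (α, 0), (z, 0)]) d L

/-- the symmetric side -/
noncomputable def wdB' (F : ℕ → ℕ → List (Ins X) → ℂ) (a x y z : Ix X) (d : ℕ)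
    (L : List (Ins X)) : ℂ :=
  ∑ α, ∑ β, pairingInv X α β * mulS (cor F 0 [(β, 0), (x, 0), (y, 0), (z, 0)])
    (cor F 0 [(a, 0), (α, 0)]) d L

lemma trr_wdB (hF : IsGW X F) (a x y z : Ix X) (d : ℕ) (L : List (Fin n)) :
    F 0 d ((a, 1) :: (x, 0) :: (y, 0) :: (z, 0) :: L.map E.ins) =
      wdB' F a x y z d (L.map E.ins) + wdB F a x y z d (L.map E.ins) := by
  rw [hF.trr d a 0 (x, 0) (y, 0) ((z, 0) :: L.map E.ins), wdB, wdB', ← Finset.sum_add_distrib]
  refine Finset.sum_congr rfl fun α _ => ?_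
  rw [← Finset.sum_add_distrib]
  refine Finset.sum_congr rfl fun β _ => ?_
  rw [← mul_add, mulS, mulS, ← Finset.sum_add_distrib]
  congr 1
  refine Finset.sum_congr rfl fun e _ => ?_
  rw [shuffle]
  congr 1
  apply shuffle_congrB
  · intro M
    have h1 : sgnL X (par X ((z, 0) : Ins X).1) (M.map E.ins) = 1 := sgnL_ins E _ _
    rw [h1, one_mul]
    rfl
  · intro M
    rfl

lemma wdB'_swap (hF : IsGW X F) (a x y z : Ix X) (d : ℕ) (L : List (Fin n)) :
    wdB' F a x y z d (L.map E.ins) =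
      sgn (par X y) (par X z) * wdB' F a x z y d (L.map E.ins) := by
  rw [wdB', wdB', Finset.mul_sum]
  refine Finset.sum_congr rfl fun α _ => ?_
  rw [Finset.mul_sum]
  refine Finset.sum_congr rfl fun β _ => ?_
  rw [mul_left_comm]
  congr 1
  rw [mulS, mulS, Finset.mul_sum]
  refine Finset.sum_congr rfl fun e _ => ?_
  rw [← shuffle_smul_leftB]
  apply shuffle_congrB
  · intro M
    exact hF.symm 0 e.1 [(β, 0), (x, 0)] (M.map E.ins) (y, 0) (z, 0)
  · intro M
    rfl

lemma wdB_swap (hF : IsGW X F) (a x y z : Ix X) (d : ℕ) (L : List (Fin n)) :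
    wdB F a x y z d (L.map E.ins) =
      sgn (par X y) (par X z) * wdB F a x z y d (L.map E.ins) := by
  have h1 := trr_wdB E hF a x y z d L
  have h2 := trr_wdB E hF a x z y d L
  have h3 := hF.symm 0 d [(a, 1), (x, 0)] (L.map E.ins) (y, 0) (z, 0)
  have h4 := wdB'_swap E hF a x y z d L
  simp only [List.cons_append, List.nil_append] at h3
  rw [h1, h2, h4, mul_add] at h3
  linear_combination h3

/-- the series of one side of WDVV -/
noncomputable def WDB (F : ℕ → ℕ → List (Ins X) → ℂ) (a x y z : Ix X) : RB n :=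
  ∑ α, ∑ β, pairingInv X α β • (sr E (cor F 0 [(β, 0), (x, 0), (y, 0)]) *
    sr E (cor F 0 [(a, 0), (α, 0), (z, 0)]))

lemma WDB_eq (hF : IsGW X F) (a x y z : Ix X) : WDB E F a x y z = sr E (wdB F a x y z) := by
  have h1 : wdB F a x y z = fun d L => ∑ α, ∑ β, pairingInv X α β *
    mulS (cor F 0 [(β, 0), (x, 0), (y, 0)]) (cor F 0 [(a, 0), (α, 0), (z, 0)]) d L := rfl
  rw [h1, sr_sum, WDB]
  refine Finset.sum_congr rfl fun α _ => ?_
  rw [sr_sum]
  refine Finset.sum_congr rfl fun β _ => ?_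
  rw [sr_smul]
  congr 1
  exact (sr_mulS E _ _ (symF_cor E hF 0 _) (symF_cor E hF 0 _)).symm

lemma WDB_swap (hF : IsGW X F) (a x y z : Ix X) :
    WDB E F a x y z = sgn (par X y) (par X z) • WDB E F a x z y := by
  rw [WDB_eq E hF, WDB_eq E hF, ← sr_smul]
  exact sr_congr E fun d L => wdB_swap E hF a x y z d L

/-- the structure constants -/
noncomputable def qB (F : ℕ → ℕ → List (Ins X) → ℂ) (i j k : Fin (X.dim + 1)) : RB n :=
  ∑ l : Fin (X.dim + 1),
    pairingInv X (Sum.inl l) (Sum.inl k) • sr E (cor F 0 [hpow X i, hpow X j, hpow X l])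

/-- the eigenvalue on the primitive classes -/
noncomputable def lB (h1 : IsGenusOne F) (j : Fin (X.dim + 1)) : RB n :=
  sr E (fun d L => Classical.choose h1.mono2 0 0 d (hpow X j :: L))

lemma qB_comm (hF : IsGW X F) (i j k : Fin (X.dim + 1)) : qB E F i j k = qB E F j i k := by
  unfold qB
  refine Finset.sum_congr rfl fun l _ => ?_
  exact congrArg _ (sr_swap_even E hF 0 [] [hpow X l] (hpow X i) (hpow X j) (Or.inl ⟨i, rfl⟩))

lemma amb_three (i j : Fin (X.dim + 1)) : ∀ x ∈ [hpow X i, hpow X j], IsAmb X x := by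
  intro x hx
  rcases List.mem_cons.1 hx with h | h
  · exact ⟨i, by rw [h]; rfl⟩
  · rcases List.mem_cons.1 h with h | h
    · exact ⟨j, by rw [h]; rfl⟩
    · simp at h

lemma amb_one (i : Fin (X.dim + 1)) : ∀ x ∈ [hpow X i], IsAmb X x := by
  intro x hx
  rcases List.mem_cons.1 hx with h | h
  · exact ⟨i, by rw [h]; rfl⟩
  · simp at h

lemma srp1 (h1 : IsGenusOne F) (v : X.Prim) (i j : Fin (X.dim + 1)) :
    sr E (cor F 0 [(Sum.inr v, 0), (Sum.inl i, 0), (Sum.inl j, 0)]) = 0 :=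
  sr_prim E h1 0 v 0 _ (amb_three i j)

lemma srp2 (hF : IsGW X F) (h1 : IsGenusOne F) (v : X.Prim) (i j : Fin (X.dim + 1)) :
    sr E (cor F 0 [(Sum.inl i, 0), (Sum.inr v, 0), (Sum.inl j, 0)]) = 0 := by
  have e := sr_swap_even E hF 0 [] [(Sum.inl j, 0)] (Sum.inl i, 0) (Sum.inr v, 0)
    (Or.inl ⟨i, rfl⟩)
  simp only [List.nil_append] at e
  rw [e, srp1 E h1]

lemma srp3 (hF : IsGW X F) (h1 : IsGenusOne F) (v : X.Prim) (i j : Fin (X.dim + 1)) :
    sr E (cor F 0 [(Sum.inl i, 0), (Sum.inl j, 0), (Sum.inr v, 0)]) = 0 := by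
  have e := sr_swap_even E hF 0 [(Sum.inl i, 0)] [] (Sum.inl j, 0) (Sum.inr v, 0)
    (Or.inl ⟨j, rfl⟩)
  simp only [List.nil_append, List.cons_append] at e
  rw [e, srp2 E hF h1]

lemma srq1 (h1 : IsGenusOne F) (v w : X.Prim) (k : Fin (X.dim + 1)) :
    sr E (cor F 0 [(Sum.inr v, 0), (Sum.inr w, 0), (Sum.inl k, 0)]) = X.form v w • lB E h1 k :=
  sr_prim2 E h1 v w 0 0 _ (amb_one k)

lemma srq2 (hF : IsGW X F) (h1 : IsGenusOne F) (v w : X.Prim) (k : Fin (X.dim + 1)) :
    sr E (cor F 0 [(Sum.inr v, 0), (Sum.inl k, 0), (Sum.inr w, 0)]) = X.form v w • lB E h1 k := by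
  have e := sr_swap_even E hF 0 [(Sum.inr v, 0)] [] (Sum.inl k, 0) (Sum.inr w, 0)
    (Or.inl ⟨k, rfl⟩)
  simp only [List.nil_append, List.cons_append] at e
  rw [e, srq1 E h1]

lemma srq3 (hF : IsGW X F) (h1 : IsGenusOne F) (v w : X.Prim) (k : Fin (X.dim + 1)) :
    sr E (cor F 0 [(Sum.inl k, 0), (Sum.inr v, 0), (Sum.inr w, 0)]) = X.form v w • lB E h1 k := by
  have e := sr_swap_even E hF 0 [] [(Sum.inr w, 0)] (Sum.inl k, 0) (Sum.inr v, 0)
    (Or.inl ⟨k, rfl⟩)
  simp only [List.nil_append, List.cons_append] at e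
  rw [e, srq2 E hF h1]

end Vale.Agent.P269.G1.H410
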