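import Vale.Agent.P269.G1I.T.H521_SrB
import Vale.Agent.P269.G1I.H410.BTools

/-!
# [DB1] topological recursion for two-point functions
-/

namespace Vale.Agent.P269.G1.H410

open Finset.HasAntidiagonal (antidiagonal)
open Vale.Agent.P269.CI Vale.Agent.P269.G1

variable {X : CompleteIntersection} {F : ℕ → ℕ → List (Ins X) → ℂ} {n : ℕ} (E : Fam X n)

lemma wB_zero (h1 : IsGenusOne F) (i : Fin n) (c : Fin (X.dim + 1)) :
    wB E h1 i 0 c = (SB E h1 (E.e i).2).1 c (E.e i).1 := by
  simp [wB]

lemma ins_eq (i : Fin n) : E.ins i = (Sum.inl (E.e i).1, (E.e i).2) := rfl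

/-- the recursion for an insertion of the family -/
lemma trr_ins (hF : IsGW X F) (h1 : IsGenusOne F) (i : Fin n) (y z : Ins X) :
    sr E (cor F 0 [E.ins i, y, z]) =
      ∑ c, wB E h1 i 0 c * sr E (cor F 0 [hpow X c, y, z]) := by
  rw [ins_eq, trrB E hF h1]
  simp only [wB_zero]

/-- **[DB1']** two-point functions depend only on the point of the small phase space -/
theorem pderiv_VB (hF : IsGW X F) (h1 : IsGenusOne F) (i : Fin n) (a b : Ins X) :
    MvPowerSeries.pderiv (PowerSeries ℂ) i (VB E F a b) =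
      ∑ c, wB E h1 i 0 c * MvPowerSeries.pderiv (PowerSeries ℂ) (E.i0 c) (VB E F a b) := by
  rw [VB, pderiv_sr_cor E hF, trr_ins E hF h1]
  refine Finset.sum_congr rfl fun c _ => ?_
  rw [pderiv_sr_cor E hF]
  have h2 : E.ins (E.i0 c) = hpow X c := by
    rw [ins_eq, E.e_i0]
    rfl
  rw [h2]

lemma pderiv_smulC (i : Fin n) (c : ℂ) (f : RB n) :
    MvPowerSeries.pderiv (PowerSeries ℂ) i (c • f) =
      c • MvPowerSeries.pderiv (PowerSeries ℂ) i f := by
  have : c • f = (PowerSeries.C c : PowerSeries ℂ) • f := by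
    ext n m
    simp
  rw [this, Derivation.map_smul]
  ext n m
  simp

/-- **[DB1]** topological recursion for two-point functions -/
theorem dB_SB (hF : IsGW X F) (h1 : IsGenusOne F) (i : Fin n) (k : ℕ) :
    dB i (SB E h1 (k + 1)) = CB E h1 (wB E h1 i 0) * SB E h1 k := by
  refine Prod.ext ?_ ?_
  · refine Matrix.ext fun c b => ?_
    change MvPowerSeries.pderiv (PowerSeries ℂ) i (∑ a : Fin (X.dim + 1),
      pairingInv X (Sum.inl a) (Sum.inl c) • VB E F (Sum.inl b, k) (Sum.inl a, 0)) =
      ∑ d, (∑ j, wB E h1 i 0 j * ∑ a : Fin (X.dim + 1),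
        pairingInv X (Sum.inl a) (Sum.inl c) • sr E (cor F 0 [hpow X j, hpow X d, hpow X a])) *
        (SB E h1 k).1 d b
    rw [map_sum]
    have e1 : ∀ a : Fin (X.dim + 1), MvPowerSeries.pderiv (PowerSeries ℂ) i
        (pairingInv X (Sum.inl a) (Sum.inl c) • VB E F (Sum.inl b, k) (Sum.inl a, 0)) =
        ∑ d, ∑ j, pairingInv X (Sum.inl a) (Sum.inl c) • (wB E h1 i 0 j * (SB E h1 k).1 d b *
          sr E (cor F 0 [hpow X j, hpow X d, hpow X a])) := by
      intro a
      rw [pderiv_smulC, VB, pderiv_sr_cor E hF]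
      have e2 := sr_swap_even E hF 0 [] [(Sum.inl a, 0)] (E.ins i) (Sum.inl b, k)
        (Or.inl (ins_isAmb E i))
      simp only [List.nil_append] at e2
      rw [e2, trrB E hF h1, Finset.smul_sum]
      refine Finset.sum_congr rfl fun d _ => ?_
      have e3 := sr_swap_even E hF 0 [] [(Sum.inl a, 0)] (hpow X d) (E.ins i) (Or.inl ⟨d, rfl⟩)
      simp only [List.nil_append] at e3
      rw [e3, trr_ins E hF h1, Finset.mul_sum, Finset.smul_sum]
      refine Finset.sum_congr rfl fun j _ => ?_
      congr 1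
      change _ * (_ * sr E (cor F 0 [hpow X j, hpow X d, hpow X a])) = _
      ring
    simp only [e1]
    rw [Finset.sum_comm]
    refine Finset.sum_congr rfl fun d _ => ?_
    rw [Finset.sum_comm, Finset.sum_mul]
    refine Finset.sum_congr rfl fun j _ => ?_
    rw [Finset.mul_sum, Finset.sum_mul]
    refine Finset.sum_congr rfl fun a _ => ?_
    rw [mul_smul_comm, smul_mul_assoc, mul_right_comm]
  · funext v
    obtain ⟨w, hvw⟩ := exists_form_neB v
    have hL : (dB i (SB E h1 (k + 1))).2 v = MvPowerSeries.pderiv (PowerSeries ℂ) i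
      (sr E (fun d L => Classical.choose h1.mono2 k 0 d L)) := rfl
    have hR : (CB E h1 (wB E h1 i 0) * SB E h1 k).2 v =
      (CB E h1 (wB E h1 i 0)).2 v * (SB E h1 k).2 v := rfl
    have hC : (CB E h1 (wB E h1 i 0)).2 v = ∑ j, wB E h1 i 0 j * lB E h1 j := rfl
    rw [hL, hR, hC, pderiv_sr E _ (SymF_Lam E hF h1 v k 0)]
    have e1 : X.form v w • sr E (fun d L => Classical.choose h1.mono2 k 0 d (E.ins i :: L)) =
        X.form v w • ((∑ j, wB E h1 i 0 j * lB E h1 j) * (SB E h1 k).2 v) := by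
      have e2 := sr_prim2 E h1 v w k 0 [E.ins i] (by
        intro x hx
        rcases List.mem_cons.1 hx with h | h
        · rw [h]; exact ins_isAmb E i
        · simp at h)
      have e3 : LamB E h1 k 0 [E.ins i] =
        sr E (fun d L => Classical.choose h1.mono2 k 0 d (E.ins i :: L)) := rfl
      rw [← e3, ← e2, trrB_prim E hF h1]
      have e4 := sr_swap_even E hF 0 [(Sum.inr v, 0)] [] (Sum.inr w, 0) (E.ins i)
        (Or.inr (ins_isAmb E i))
      have e5 := sr_swap_even E hF 0 [] [(Sum.inr w, 0)] (Sum.inr v, 0) (E.ins i)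
        (Or.inr (ins_isAmb E i))
      simp only [List.nil_append, List.cons_append] at e4 e5
      rw [e4, e5, trr_ins E hF h1, mul_comm, ← smul_mul_assoc]
      congr 1
      rw [Finset.smul_sum]
      refine Finset.sum_congr rfl fun j _ => ?_
      have e6 : sr E (cor F 0 [hpow X j, (Sum.inr v, 0), (Sum.inr w, 0)]) =
        X.form v w • lB E h1 j := srq3 E hF h1 v w j
      rw [e6, mul_smul_comm]
    have e7 := congrArg (fun z => (X.form v w)⁻¹ • z) e1
    simpa only [inv_smul_smul₀ hvw] using e7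

end Vale.Agent.P269.G1.H410
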