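import Vale.Agent.P269.G1I.Model
import Vale.Agent.P269.G1I.H598.Ser

/-!
# [c8a] the eigenvalue of quantum multiplication on the primitive part
-/

namespace Vale.Agent.P269.G1.H410

open Finset.HasAntidiagonal (antidiagonal)
open Vale.Agent.P269.CI Vale.Agent.P269.G1

variable {X : CompleteIntersection} {F : ℕ → ℕ → List (Ins X) → ℂ}

lemma sgn_false_left (b : Bool) : sgn false b = 1 := by simp [sgn]

lemma sgn_false_right (b : Bool) : sgn b false = 1 := by simp [sgn]

lemma isAmb_hpow (i : Fin (X.dim + 1)) : IsAmb X (hpow X i) := ⟨i, rfl⟩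

lemma isAmb_map (L : List (Fin (X.dim + 1))) : ∀ x ∈ L.map (hpow X), IsAmb X x := by
  intro x hx
  obtain ⟨j, _, rfl⟩ := List.mem_map.1 hx
  exact ⟨j, rfl⟩

lemma isAmb_cons {i : Fin (X.dim + 1)} {L : List (Ins X)} (hL : ∀ x ∈ L, IsAmb X x) :
    ∀ x ∈ hpow X i :: L, IsAmb X x := by
  intro x hx
  rcases List.mem_cons.1 hx with rfl | h
  · exact ⟨i, rfl⟩
  · exact hL x h

/-- an ambient insertion may be moved to the left -/
lemma move_left (hF : IsGW X F) (g d : ℕ) (i : Fin (X.dim + 1)) (L : List (Ins X)) :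
    ∀ (P A : List (Ins X)), F g d (A ++ P ++ hpow X i :: L) = F g d (A ++ hpow X i :: (P ++ L)) := by
  intro P
  induction P with
  | nil => intro A; simp
  | cons p P ih =>
    intro A
    have h1 := ih (A ++ [p])
    have h2 := hF.symm g d A (P ++ L) p (hpow X i)
    have h3 : sgn (par X p.1) (par X (hpow X i).1) = 1 := sgn_false_right _
    rw [h3, one_mul] at h2
    simp only [List.append_assoc, List.cons_append, List.nil_append] at h1 ⊢
    rw [h1, h2]

lemma symS_cor (hF : IsGW X F) (g : ℕ) (P : List (Ins X)) : SymS (cor F g P) := by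
  intro d L M h
  change F g d (P ++ _) = F g d (P ++ _)
  induction h generalizing P with
  | nil => rfl
  | cons x _ ih =>
    have := ih (P ++ [hpow X x])
    simpa using this
  | swap x y l =>
    have h2 := hF.symm g d P (l.map (hpow X)) (hpow X y) (hpow X x)
    have h3 : sgn (par X (hpow X y).1) (par X (hpow X x).1) = 1 := sgn_false_right _
    rw [h3, one_mul] at h2
    simpa using h2
  | trans _ _ ih1 ih2 => rw [ih1, ih2]

/-- the common function of the two-point functions of primitive classes -/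
noncomputable def Lam (h1 : IsGenusOne F) (d : ℕ) (L : List (Ins X)) : ℂ :=
  Classical.choose h1.mono2 0 0 d L

lemma Lam_spec (h1 : IsGenusOne F) (d : ℕ) (v w : X.Prim) (L : List (Ins X))
    (hL : ∀ x ∈ L, IsAmb X x) :
    F 0 d ((Sum.inr v, 0) :: (Sum.inr w, 0) :: L) = X.form v w * Lam h1 d L :=
  Classical.choose_spec h1.mono2 d v w 0 0 L hL

lemma exists_form_ne (v : X.Prim) : ∃ w, X.form v w ≠ 0 := by
  by_contra h
  push Not at h
  exact X.form_nondeg (Matrix.det_eq_zero_of_row_eq_zero v (fun j => h j))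

lemma Lam_eq (h1 : IsGenusOne F) {v w : X.Prim} (hvw : X.form v w ≠ 0) (d : ℕ) (L : List (Ins X))
    (hL : ∀ x ∈ L, IsAmb X x) :
    Lam h1 d L = (X.form v w)⁻¹ * F 0 d ((Sum.inr v, 0) :: (Sum.inr w, 0) :: L) := by
  rw [Lam_spec h1 d v w L hL, ← mul_assoc, inv_mul_cancel₀ hvw, one_mul]

lemma ser_congr {A B : ℕ → List (Ins X) → ℂ}
    (h : ∀ d (L : List (Fin (X.dim + 1))), A d (L.map (hpow X)) = B d (L.map (hpow X))) :
    ser A = ser B := by
  unfold ser
  congr 1
  funext L
  ext d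
  simpa using h d L

lemma SymS_Lam (hF : IsGW X F) (h1 : IsGenusOne F) (v : X.Prim) (P : List (Fin (X.dim + 1))) :
    SymS (fun d L => Lam h1 d (P.map (hpow X) ++ L)) := by
  intro d L M h
  obtain ⟨w, hvw⟩ := exists_form_ne v
  have hm : ∀ N : List (Fin (X.dim + 1)), ∀ x ∈ P.map (hpow X) ++ N.map (hpow X), IsAmb X x := by
    intro N
    rw [← List.map_append]
    exact isAmb_map _
  change Lam h1 d _ = Lam h1 d _
  rw [Lam_eq h1 hvw d _ (hm L), Lam_eq h1 hvw d _ (hm M)]
  congr 1
  exact symS_cor hF 0 ((Sum.inr v, 0) :: (Sum.inr w, 0) :: P.map (hpow X)) d L M h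

/-- the string equation for the two-point functions of primitive classes -/
lemma Lam_string (hF : IsGW X F) (h1 : IsGenusOne F) (v : X.Prim) (d : ℕ)
    (L : List (Fin (X.dim + 1))) :
    Lam h1 d (hpow X 0 :: L.map (hpow X)) = if d = 0 ∧ L = [] then 1 else 0 := by
  obtain ⟨w, hvw⟩ := exists_form_ne v
  rw [Lam_eq h1 hvw d _ (isAmb_cons (isAmb_map L))]
  have e1 := move_left hF 0 d 0 (L.map (hpow X)) [(Sum.inr v, 0), (Sum.inr w, 0)] []
  simp only [List.nil_append, List.cons_append] at e1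
  rw [e1]
  have e2 := hF.string 0 d ((Sum.inr v, 0) :: (Sum.inr w, 0) :: L.map (hpow X))
  have e3 : F 0 d (hpow X 0 :: (Sum.inr v, 0) :: (Sum.inr w, 0) :: L.map (hpow X)) =
    F 0 d ((one X, 0) :: (Sum.inr v, 0) :: (Sum.inr w, 0) :: L.map (hpow X)) := rfl
  rw [e3, e2]
  have e4 : ∀ (T : Ix X → Ix X → ℂ) (G : List (Ins X) → ℂ),
      lowerSum X T G ((Sum.inr v, 0) :: (Sum.inr w, 0) :: L.map (hpow X)) = 0 := by
    intro T G
    unfold lowerSum
    apply Finset.sum_eq_zero
    intro j _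
    rw [if_pos]
    have hj : ∀ x ∈ ((Sum.inr v, 0) :: (Sum.inr w, 0) :: L.map (hpow X) : List (Ins X)),
        x.2 = 0 := by
      intro x hx
      simp only [List.mem_cons, List.mem_map] at hx
      rcases hx with rfl | rfl | ⟨a, _, rfl⟩ <;> rfl
    exact hj _ (List.get_mem _ _)
  rw [e4, zero_add]
  by_cases hd : d = 0
  · subst hd
    cases L with
    | nil =>
      simp [pairTerm, pairing, inv_mul_cancel₀ hvw]
    | cons a L => simp [pairTerm]
  · simp [hd]

lemma lst_eq_nil_iff {n : ℕ} (α : Fin n →₀ ℕ) : lst α = [] ↔ α = 0 := by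
  constructor
  · intro h
    ext j
    rw [← H598.count_lst α j, h]
    rfl
  · rintro rfl
    exact H598.lst_zero

/-- **[c8]** -/
theorem lamc_zero (hF : IsGW X F) (h1 : IsGenusOne F) (v : X.Prim) : lamc h1 0 = 1 := by
  have e1 : lamc h1 0 = ser (fun d L => if d = 0 ∧ L = [] then 1 else 0) := by
    apply ser_congr
    intro d L
    have := Lam_string hF h1 v d L
    simpa [Lam] using this
  rw [e1]
  classical
  refine MvPowerSeries.ext fun α => ?_
  rw [ser, H598.coeff_toSer, MvPowerSeries.coeff_one]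
  by_cases hα : α = 0
  · subst hα
    rw [H598.lst_zero, if_pos rfl]
    have h3 : (PowerSeries.mk fun d => if d = 0 ∧ (([] : List (Fin (X.dim + 1))).map (hpow X) = [])
        then (1 : ℂ) else 0) = 1 := by
      ext d
      rw [PowerSeries.coeff_mk, PowerSeries.coeff_one]
      simp
    rw [h3]
    simp
  · have h2 : lst α ≠ [] := fun h => hα ((lst_eq_nil_iff α).1 h)
    rw [if_neg hα]
    have h3 : (PowerSeries.mk fun d => if d = 0 ∧ (lst α).map (hpow X) = [] then (1 : ℂ) else 0) =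
        0 := by
      ext d
      rw [PowerSeries.coeff_mk, if_neg]
      · rfl
      · rintro ⟨_, h⟩
        exact h2 (List.map_eq_nil_iff.1 h)
    rw [h3, smul_zero]

lemma lamc_eq (h1 : IsGenusOne F) (i : Fin (X.dim + 1)) :
    lamc h1 i = ser (fun d L => Lam h1 d (hpow X i :: L)) := rfl

lemma SymS_Lam0 (hF : IsGW X F) (h1 : IsGenusOne F) (v : X.Prim) :
    SymS (fun d L => Lam h1 d L) :=
  SymS_Lam hF h1 v []

lemma SymS_Lam1 (hF : IsGW X F) (h1 : IsGenusOne F) (v : X.Prim) (i : Fin (X.dim + 1)) :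
    SymS (fun d L => Lam h1 d (hpow X i :: L)) :=
  SymS_Lam hF h1 v [i]

/-- the potential of the eigenvalue -/
noncomputable def pot (h1 : IsGenusOne F) : RR X := ser (fun d L => Lam h1 d L)

lemma pderiv_pot (hF : IsGW X F) (h1 : IsGenusOne F) (v : X.Prim) (i : Fin (X.dim + 1)) :
    MvPowerSeries.pderiv (PowerSeries ℂ) i (pot h1) = lamc h1 i := by
  rw [pot, H598.pderiv_ser _ (SymS_Lam0 hF h1 v), lamc_eq]

/-- **[c8]** -/
theorem pderiv_lamc (hF : IsGW X F) (h1 : IsGenusOne F) (v : X.Prim) (i j : Fin (X.dim + 1)) :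
    MvPowerSeries.pderiv (PowerSeries ℂ) i (lamc h1 j) =
      MvPowerSeries.pderiv (PowerSeries ℂ) j (lamc h1 i) := by
  rw [lamc_eq, lamc_eq, H598.pderiv_ser _ (SymS_Lam1 hF h1 v j),
    H598.pderiv_ser _ (SymS_Lam1 hF h1 v i)]
  apply ser_congr
  intro d L
  have := SymS_Lam hF h1 v [] d (j :: i :: L) (i :: j :: L) (List.Perm.swap _ _ _)
  simpa using this

/-- the divisor equation for the two-point functions of primitive classes -/
lemma Lam_divisor (hF : IsGW X F) (h1 : IsGenusOne F) (v : X.Prim) (d : ℕ) (i : Fin (X.dim + 1))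
    (hi : (i : ℕ) = 1) (L : List (Fin (X.dim + 1))) :
    Lam h1 d (hpow X i :: L.map (hpow X)) = d * Lam h1 d (L.map (hpow X)) := by
  obtain ⟨w, hvw⟩ := exists_form_ne v
  rw [Lam_eq h1 hvw d _ (isAmb_cons (isAmb_map L)), Lam_eq h1 hvw d _ (isAmb_map L)]
  have e1 := move_left hF 0 d i (L.map (hpow X)) [(Sum.inr v, 0), (Sum.inr w, 0)] []
  simp only [List.nil_append, List.cons_append] at e1
  rw [e1]
  have hi' : hpow X i = (hcls X, 0) := by
    have : i = ⟨1, by have := X.two_le_dim; omega⟩ := Fin.ext hi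
    rw [this]
    rfl
  rw [hi', hF.divisor 0 d ((Sum.inr v, 0) :: (Sum.inr w, 0) :: L.map (hpow X))]
  have e4 : ∀ (T : Ix X → Ix X → ℂ) (G : List (Ins X) → ℂ),
      lowerSum X T G ((Sum.inr v, 0) :: (Sum.inr w, 0) :: L.map (hpow X)) = 0 := by
    intro T G
    unfold lowerSum
    apply Finset.sum_eq_zero
    intro j _
    rw [if_pos]
    have hj : ∀ x ∈ ((Sum.inr v, 0) :: (Sum.inr w, 0) :: L.map (hpow X) : List (Ins X)),
        x.2 = 0 := by
      intro x hx
      simp only [List.mem_cons, List.mem_map] at hx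
      rcases hx with rfl | rfl | ⟨a, _, rfl⟩ <;> rfl
    exact hj _ (List.get_mem _ _)
  have e5 : pairTerm X (fun a b => ∑ c, hmul X a c * pairing X c b)
      ((Sum.inr v, 0) :: (Sum.inr w, 0) :: L.map (hpow X)) = 0 := by
    cases L with
    | nil => simp [pairTerm, hmul]
    | cons a L => simp [pairTerm]
  rw [e4, e5]
  simp
  ring

/-- the grading for the two-point functions of primitive classes -/
lemma Lam_grading (hF : IsGW X F) (h1 : IsGenusOne F) (v : X.Prim) (d : ℕ)
    (L : List (Fin (X.dim + 1))) (h : Lam h1 d (L.map (hpow X)) ≠ 0) :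
    (L.map fun i : Fin (X.dim + 1) => (1 : ℤ) - ((i : ℕ) : ℤ)).sum + index X * d = 1 := by
  obtain ⟨w, hvw⟩ := exists_form_ne v
  have h2 : F 0 d ((Sum.inr v, 0) :: (Sum.inr w, 0) :: L.map (hpow X)) ≠ 0 := by
    rw [Lam_spec h1 d v w _ (isAmb_map L)]
    exact mul_ne_zero hvw h
  have h3 := hF.grading_p 0 d _ h2
  have h4 := X.form_hodge v w hvw
  have h5 : ∀ M : List (Fin (X.dim + 1)),
      ((M.map (hpow X)).map fun x => (x.2 : ℤ) + hp X x.1 - 1).sum =
        - (M.map fun i : Fin (X.dim + 1) => (1 : ℤ) - ((i : ℕ) : ℤ)).sum := by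
    intro M
    induction M with
    | nil => rfl
    | cons a M ih =>
      simp only [List.map_cons, List.sum_cons, ih]
      simp only [hpow, hp]
      push_cast
      ring
  simp only [List.map_cons, List.sum_cons, h5] at h3
  simp only [hp] at h3
  push_cast at h3
  have h6 : (X.hodgeP v : ℤ) + X.hodgeP w = X.dim := by exact_mod_cast h4
  linarith

lemma sum_lst {n : ℕ} (α : Fin n →₀ ℕ) (f : Fin n → ℤ) :
    ((lst α).map f).sum = ∑ i, (α i : ℤ) * f i := by
  rw [Finset.sum_list_map_count]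
  have h1 : ∀ m ∈ (lst α).toFinset, (lst α).count m • f m = (α m : ℤ) * f m := by
    intro m _
    rw [H598.count_lst]
    simp
  rw [Finset.sum_congr rfl h1]
  apply Finset.sum_subset (Finset.subset_univ _)
  intro m _ hm
  have : α m = 0 := by
    rw [← H598.count_lst α m]
    exact List.count_eq_zero.2 (fun h => hm (List.mem_toFinset.2 h))
  simp [this]

lemma coeff_X_mul_pderiv {n : ℕ} {K : Type*} [CommRing K] (i : Fin n) (f : MvPowerSeries (Fin n) K)
    (α : Fin n →₀ ℕ) :
    MvPowerSeries.coeff α (MvPowerSeries.X i * MvPowerSeries.pderiv K i f) =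
      (α i : K) * MvPowerSeries.coeff α f := by
  classical
  rw [MvPowerSeries.X_def, MvPowerSeries.coeff_monomial_mul]
  by_cases h : Finsupp.single i 1 ≤ α
  · rw [if_pos h, MvPowerSeries.coeff_pderiv, tsub_add_cancel_of_le h, one_mul]
    have h2 : 1 ≤ α i := by
      rw [Finsupp.single_le_iff] at h
      exact h
    have h3 : (((α - Finsupp.single i 1 : Fin n →₀ ℕ) i : ℕ) : K) + 1 = (α i : K) := by
      rw [Finsupp.tsub_apply, Finsupp.single_eq_same]
      have : α i - 1 + 1 = α i := by omega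
      exact_mod_cast congrArg (Nat.cast (R := K)) this
    rw [h3]
    ring
  · rw [if_neg h]
    have h2 : α i = 0 := by
      rw [Finsupp.single_le_iff] at h
      omega
    simp [h2]

/-- the Euler field acts on the potential by one -/
lemma euler_pot (hF : IsGW X F) (h1 : IsGenusOne F) (v : X.Prim) :
    ∑ i, Eu hF h1 i * lamc h1 i = pot h1 := by
  classical
  let i1 : Fin (X.dim + 1) := ⟨1, by have := X.two_le_dim; omega⟩
  have e1 : ∑ i, Eu hF h1 i * lamc h1 i =
      ∑ i : Fin (X.dim + 1), (((1 - (i : ℤ) : ℤ) : RR X)) * (MvPowerSeries.X i *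
        MvPowerSeries.pderiv (PowerSeries ℂ) i (pot h1)) + ((index X : ℤ) : RR X) * lamc h1 i1 := by
    have e2 : ((index X : ℤ) : RR X) * lamc h1 i1 = ∑ i : Fin (X.dim + 1),
        (if (i : ℕ) = 1 then ((index X : ℤ) : RR X) else 0) * lamc h1 i := by
      rw [Finset.sum_eq_single i1]
      · simp [i1]
      · intro b _ hb
        have : (b : ℕ) ≠ 1 := fun h => hb (Fin.ext h)
        simp [this]
      · simp
    rw [e2, ← Finset.sum_add_distrib]
    refine Finset.sum_congr rfl fun i _ => ?_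
    rw [pderiv_pot hF h1 v, Eu]
    push_cast
    ring
  rw [e1]
  refine MvPowerSeries.ext fun α => ?_
  rw [map_add, map_sum]
  have e3 : ∀ (c : ℤ) (f : RR X), MvPowerSeries.coeff α ((c : RR X) * f) =
      (c : PowerSeries ℂ) * MvPowerSeries.coeff α f := by
    intro c f
    rw [← zsmul_eq_mul, ← zsmul_eq_mul, map_zsmul]
  have e4 : lamc h1 i1 = ser (fun d L => (d : ℂ) * Lam h1 d L) := by
    rw [lamc_eq]
    exact ser_congr fun d L => Lam_divisor hF h1 v d i1 rfl L
  simp only [e3, coeff_X_mul_pderiv, e4]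
  rw [pot, ser, ser, H598.coeff_toSer, H598.coeff_toSer]
  set q : ℚ := ((∏ i, (α i).factorial : ℕ) : ℚ)⁻¹ with hq
  set A : PowerSeries ℂ := PowerSeries.mk fun d => Lam h1 d ((lst α).map (hpow X)) with hA
  set B : PowerSeries ℂ := PowerSeries.mk fun d => (d : ℂ) * Lam h1 d ((lst α).map (hpow X))
    with hB
  have e5 : (((lst α).map fun i : Fin (X.dim + 1) => (1 : ℤ) - ((i : ℕ) : ℤ)).sum : PowerSeries ℂ) * A +
      (index X : PowerSeries ℂ) * B = A := by
    ext d
    rw [map_add, ← zsmul_eq_mul, ← zsmul_eq_mul, map_zsmul, map_zsmul, hA, hB,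
      PowerSeries.coeff_mk, PowerSeries.coeff_mk]
    by_cases h : Lam h1 d ((lst α).map (hpow X)) = 0
    · simp [h]
    · have h2 := Lam_grading hF h1 v d (lst α) h
      have h3 : ((((lst α).map fun i : Fin (X.dim + 1) => (1 : ℤ) - ((i : ℕ) : ℤ)).sum : ℤ) : ℂ) +
          ((index X : ℤ) : ℂ) * d = 1 := by exact_mod_cast congrArg (Int.cast (R := ℂ)) h2
      rw [zsmul_eq_mul, zsmul_eq_mul]
      linear_combination (Lam h1 d ((lst α).map (hpow X))) * h3
  have e6 : (∑ i : Fin (X.dim + 1), ((1 - (i : ℤ) : ℤ) : PowerSeries ℂ) *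
      ((α i : PowerSeries ℂ) * (q • A))) =
      (((lst α).map fun i : Fin (X.dim + 1) => (1 : ℤ) - ((i : ℕ) : ℤ)).sum : PowerSeries ℂ) * (q • A) := by
    rw [sum_lst]
    push_cast
    rw [Finset.sum_mul]
    refine Finset.sum_congr rfl fun i _ => ?_
    ring
  rw [e6, mul_smul_comm, mul_smul_comm, ← smul_add, e5]

/-- **[c8]** from the grading equation -/
theorem der_lamc_E (hF : IsGW X F) (h1 : IsGenusOne F) (v : X.Prim) (x : AA hF h1) :
    der hF h1 x (∑ i, Eu hF h1 i * lamc h1 i) = ∑ i, x i * lamc h1 i := by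
  rw [euler_pot hF h1 v, der]
  refine Finset.sum_congr rfl fun i _ => ?_
  rw [pderiv_pot hF h1 v]

end Vale.Agent.P269.G1.H410
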