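import Vale.Agent.P269.G1I.H410.WTrr

/-!
# [ZB3] unitarity
-/

namespace Vale.Agent.P269.G1.H410

open Finset.HasAntidiagonal (antidiagonal)
open Vale.Agent.P269.CI Vale.Agent.P269.G1

variable {X : CompleteIntersection} {F : ℕ → ℕ → List (Ins X) → ℂ}

/-- telescoping of an alternating sum -/
lemma tele {M : Type*} [CommRing M] (w P : ℕ → ℕ → M) (g : M) (h00 : P 0 0 = g)
    (h10 : ∀ m, P (m + 1) 0 = w m 0) (h01 : ∀ n, P 0 (n + 1) = w 0 n)
    (h11 : ∀ m n, P (m + 1) (n + 1) = w m (n + 1) + w (m + 1) n) (p : ℕ) :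
    ∑ e ∈ antidiagonal p, (-1) ^ e.1 * P e.1 e.2 = if p = 0 then g else 0 := by
  cases p with
  | zero => simp [h00]
  | succ p =>
    rw [Finset.Nat.sum_antidiagonal_eq_sum_range_succ (fun i j => (-1) ^ i * P i j) (p + 1),
      if_neg (Nat.succ_ne_zero p)]
    have key : ∀ j ≤ p, ∑ k ∈ Finset.range (j + 1), (-1) ^ k * P k (p + 1 - k) =
        (-1) ^ j * w j (p - j) := by
      intro j
      induction j with
      | zero =>
        intro _
        simp [h01]
      | succ j ih =>
        intro hj
        rw [Finset.sum_range_succ, ih (by omega)]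
        obtain ⟨r, hr⟩ : ∃ r, p = j + 1 + r := ⟨p - (j + 1), by omega⟩
        have e1 : p + 1 - (j + 1) = r + 1 := by omega
        have e2 : p - j = r + 1 := by omega
        have e3 : p - (j + 1) = r := by omega
        rw [e1, e2, e3, h11]
        ring
    rw [Finset.sum_range_succ, key p le_rfl]
    have e1 : p + 1 - (p + 1) = 0 := by omega
    have e2 : p - p = 0 := by omega
    rw [e1, e2, h10]
    ring

lemma lowerSum_cons (T : Ix X → Ix X → ℂ) (G : List (Ins X) → ℂ) (x : Ins X) (L : List (Ins X)) :
    lowerSum X T G (x :: L) =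
      (if x.2 = 0 then 0 else ∑ b, T x.1 b * G ((b, x.2 - 1) :: L)) +
        lowerSum X T (fun M => G (x :: M)) L := by
  unfold lowerSum
  exact Fin.sum_univ_succ (n := L.length) _

/-- the string equation for two-point functions -/
lemma W_string (hF : IsGW X F) (a b : Ix X) (m n : ℕ) :
    ser (cor F 0 [hpow X 0, (a, m), (b, n)]) =
      (if m = 0 then 0 else W F (a, m - 1) (b, n)) + (if n = 0 then 0 else W F (a, m) (b, n - 1)) +
        (if m = 0 ∧ n = 0 then H598.kst X (pairing X a b) else 0) := by
  classical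
  have e0 : ser (cor F 0 [hpow X 0, (a, m), (b, n)]) =
      ser (fun d L => ((if m = 0 then 0 else cor F 0 [(a, m - 1), (b, n)] d L) +
        (if n = 0 then 0 else cor F 0 [(a, m), (b, n - 1)] d L)) +
        (if m = 0 ∧ n = 0 then (if d = 0 ∧ L = [] then pairing X a b else 0) else 0)) := by
    refine ser_congr fun d L => ?_
    have h2 := hF.string 0 d ([(a, m), (b, n)] ++ L.map (hpow X))
    change F 0 d ((one X, 0) :: ([(a, m), (b, n)] ++ L.map (hpow X))) = _
    rw [h2]
    simp only [List.cons_append, List.nil_append]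
    rw [lowerSum_cons, lowerSum_cons, H598.lowerSum_zero]
    · congr 1
      · rw [add_zero]
        congr 1
        · by_cases hm : m = 0
          · simp [hm]
          · simp [hm, cor]
        · by_cases hn : n = 0
          · simp [hn]
          · simp [hn, cor]
      · by_cases hd : d = 0
        · subst hd
          cases L with
          | nil =>
            cases m with
            | zero =>
              cases n with
              | zero => simp [pairTerm]
              | succ n => simp [pairTerm]
            | succ m => simp [pairTerm]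
          | cons c L => simp [pairTerm]
        · simp [hd]
    · intro x hx
      obtain ⟨i, _, rfl⟩ := List.mem_map.1 hx
      rfl
  rw [e0, ser_add, ser_add]
  congr 1
  · congr 1
    · by_cases hm : m = 0
      · simp only [hm, if_true]
        exact ser_zero
      · simp only [hm, if_false]
        rfl
    · by_cases hn : n = 0
      · simp only [hn, if_true]
        exact ser_zero
      · simp only [hn, if_false]
        rfl
  · by_cases h : m = 0 ∧ n = 0
    · simp only [h, and_self, if_true]
      exact H598.ser_const _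
    · simp only [h, if_false]
      exact ser_zero

/-- the alternating sum of the string equations -/
lemma alt_string (hF : IsGW X F) (a b : Ix X) (p : ℕ) :
    ∑ e ∈ antidiagonal p, (-1) ^ e.1 * ser (cor F 0 [hpow X 0, (a, e.1), (b, e.2)]) =
      if p = 0 then H598.kst X (pairing X a b) else 0 := by
  refine tele (fun m n => W F (a, m) (b, n)) (fun m n => ser (cor F 0 [hpow X 0, (a, m), (b, n)]))
    _ ?_ ?_ ?_ ?_ p
  · rw [W_string hF]
    simp
  · intro m
    rw [W_string hF]
    simp
  · intro n
    rw [W_string hF]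
    simp
  · intro m n
    rw [W_string hF]
    simp

/-- the pairing as a constant series -/
noncomputable def gg (X : CompleteIntersection) (i j : Fin (X.dim + 1)) : RR X :=
  H598.kst X (pairing X (Sum.inl i) (Sum.inl j))

/-- the inverse pairing as a constant series -/
noncomputable def hh (X : CompleteIntersection) (i j : Fin (X.dim + 1)) : RR X :=
  H598.kst X (pairingInv X (Sum.inl i) (Sum.inl j))

lemma gg_symm (i j : Fin (X.dim + 1)) : gg X i j = gg X j i := by
  unfold gg
  congr 1
  simp only [pairing]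
  rw [add_comm]

lemma hh_symm (i j : Fin (X.dim + 1)) : hh X i j = hh X j i := by
  unfold hh
  congr 1
  simp only [pairingInv]
  rw [add_comm]

lemma kst_mul (c d : ℂ) : H598.kst X c * H598.kst X d = H598.kst X (c * d) := by
  unfold H598.kst
  rw [← map_mul, ← map_mul]

lemma kst_sum {ι : Type*} (s : Finset ι) (f : ι → ℂ) :
    ∑ i ∈ s, H598.kst X (f i) = H598.kst X (∑ i ∈ s, f i) := by
  unfold H598.kst
  rw [map_sum, map_sum]

lemma hh_gg (j k : Fin (X.dim + 1)) : ∑ l, hh X l k * gg X j l = if j = k then 1 else 0 := by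
  unfold hh gg
  simp only [kst_mul]
  rw [kst_sum, H598.pairing_inv_amb]
  split_ifs
  · unfold H598.kst; simp
  · unfold H598.kst; simp

lemma cor_gg (hF : IsGW X F) (i j : Fin (X.dim + 1)) :
    ser (cor F 0 [hpow X 0, hpow X i, hpow X j]) = gg X i j := by
  have := W_string hF (Sum.inl i) (Sum.inl j) 0 0
  simpa [gg, hpow] using this

variable (hF : IsGW X F) (h1 : IsGenusOne F)

/-- the matrix of `ST` -/
noncomputable def NN (m : ℕ) (i k : Fin (X.dim + 1)) : RR X :=
  match m with
  | 0 => if i = k then 1 else 0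
  | m + 1 => ∑ b : Fin (X.dim + 1), pairingInv X (Sum.inl b) (Sum.inl k) •
      W F (Sum.inl b, m) (Sum.inl i, 0)

lemma ST_apply (m : ℕ) (y : AA hF h1) (k : Fin (X.dim + 1)) :
    ((ST hF h1 m).1 y : AA hF h1) k = ∑ i, y i * NN (F := F) m i k := by
  cases m with
  | zero =>
    change y k = _
    rw [Finset.sum_eq_single k]
    · simp [NN]
    · intro b _ hb
      simp [NN, hb]
    · simp
  | succ m =>
    rw [ST]
    exact mkEnd_apply hF h1 _ y k

lemma NN_adj (m : ℕ) (a i : Fin (X.dim + 1)) : ∑ k, gg X a k * NN (F := F) m i k =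
    ∑ j, ((SS hF h1 m).1 (QA.bas _ a) : AA hF h1) j * gg X j i := by
  cases m with
  | zero =>
    rw [Finset.sum_eq_single i, Finset.sum_eq_single a]
    · rw [SS_zero_bas]
      simp [NN]
    · intro b _ hb
      rw [SS_zero_bas, if_neg hb, zero_mul]
    · simp
    · intro b _ hb
      simp [NN, Ne.symm hb]
    · simp
  | succ m =>
    simp only [SS_succ_bas]
    have e1 : ∑ k, gg X a k * NN (F := F) (m + 1) i k = W F (Sum.inl a, m) (Sum.inl i, 0) := by
      have h2 : ∀ k, gg X a k * NN (F := F) (m + 1) i k = ∑ b : Fin (X.dim + 1),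
          (hh X k b * gg X a k) * W F (Sum.inl b, m) (Sum.inl i, 0) := by
        intro k
        rw [NN, Finset.mul_sum]
        refine Finset.sum_congr rfl fun b _ => ?_
        rw [H598.smul_RR, hh_symm k b, hh]
        ring
      simp only [h2]
      rw [Finset.sum_comm]
      simp only [← Finset.sum_mul, hh_gg]
      simp
    have e2 : ∑ j, (∑ b : Fin (X.dim + 1), pairingInv X (Sum.inl b) (Sum.inl j) •
        W F (Sum.inl a, m) (Sum.inl b, 0)) * gg X j i = W F (Sum.inl a, m) (Sum.inl i, 0) := by
      have h2 : ∀ j, (∑ b : Fin (X.dim + 1), pairingInv X (Sum.inl b) (Sum.inl j) •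
          W F (Sum.inl a, m) (Sum.inl b, 0)) * gg X j i = ∑ b : Fin (X.dim + 1),
          (hh X j b * gg X i j) * W F (Sum.inl a, m) (Sum.inl b, 0) := by
        intro j
        rw [Finset.sum_mul]
        refine Finset.sum_congr rfl fun b _ => ?_
        rw [H598.smul_RR, hh_symm j b, gg_symm i j, hh]
        ring
      simp only [h2]
      rw [Finset.sum_comm]
      simp only [← Finset.sum_mul, hh_gg]
      simp
    rw [e1, e2]

lemma pair_ST_SS (m n : ℕ) (a b : Fin (X.dim + 1)) :
    ∑ k, gg X a k * ((ST hF h1 m).1 ((SS hF h1 n).1 (QA.bas _ b)) : AA hF h1) k =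
      ser (cor F 0 [hpow X 0, (Sum.inl a, m), (Sum.inl b, n)]) := by
  have e1 : ∀ k, gg X a k * ((ST hF h1 m).1 ((SS hF h1 n).1 (QA.bas _ b)) : AA hF h1) k =
      ∑ i, ((SS hF h1 n).1 (QA.bas _ b) : AA hF h1) i * (gg X a k * NN (F := F) m i k) := by
    intro k
    rw [ST_apply, Finset.mul_sum]
    exact Finset.sum_congr rfl fun i _ => by ring
  simp only [e1]
  rw [Finset.sum_comm]
  simp only [← Finset.mul_sum, NN_adj hF h1]
  rw [W_trr hF h1 0 a b m n, Finset.sum_comm]
  refine Finset.sum_congr rfl fun i _ => ?_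
  rw [Finset.mul_sum]
  refine Finset.sum_congr rfl fun j _ => ?_
  rw [cor_gg hF]
  ring

/-- `T S = 1` -/
lemma ST_SS (p : ℕ) : ∑ e ∈ antidiagonal p, (-1) ^ e.1 * (ST hF h1 e.1 * SS hF h1 e.2) =
    if p = 0 then 1 else 0 := by
  have hneg : ∀ (n : ℕ) (x : OO hF h1), (-1) ^ n * x = ((-1 : RR X) ^ n) • x := by
    intro n x
    rcases Nat.even_or_odd n with h | h
    · rw [h.neg_one_pow, h.neg_one_pow, one_mul, one_smul]
    · rw [h.neg_one_pow, h.neg_one_pow, neg_one_mul, neg_smul, one_smul]
  simp only [hneg]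
  apply Prod.ext
  · rw [Prod.fst_sum]
    have h2 : (if p = 0 then (1 : OO hF h1) else 0).1 = if p = 0 then 1 else 0 := by
      split_ifs <;> rfl
    rw [h2]
    apply (QA.bas (consts hF h1)).ext
    intro b
    funext k
    have h3 : ∀ k, ((∑ e ∈ antidiagonal p, ((-1 : RR X) ^ e.1 • (ST hF h1 e.1 * SS hF h1 e.2)).1)
        (QA.bas (consts hF h1) b) : AA hF h1) k = ∑ e ∈ antidiagonal p, (-1) ^ e.1 *
          ((ST hF h1 e.1).1 ((SS hF h1 e.2).1 (QA.bas _ b)) : AA hF h1) k := by
      intro k
      rw [LinearMap.sum_apply]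
      exact Finset.sum_apply (M := fun _ : Fin (X.dim + 1) => RR X) k _ _
    have h4 : ∀ a, ∑ k, gg X a k * (∑ e ∈ antidiagonal p, (-1) ^ e.1 *
          ((ST hF h1 e.1).1 ((SS hF h1 e.2).1 (QA.bas _ b)) : AA hF h1) k) =
          if p = 0 then gg X a b else 0 := by
      intro a
      have h5 := alt_string hF (Sum.inl a) (Sum.inl b) p
      rw [show H598.kst X (pairing X (Sum.inl a) (Sum.inl b)) = gg X a b from rfl] at h5
      rw [← h5]
      simp only [Finset.mul_sum]
      rw [Finset.sum_comm]
      refine Finset.sum_congr rfl fun e _ => ?_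
      rw [← pair_ST_SS hF h1, Finset.mul_sum]
      exact Finset.sum_congr rfl fun k _ => by ring
    have h6 : (∑ e ∈ antidiagonal p, (-1) ^ e.1 *
          ((ST hF h1 e.1).1 ((SS hF h1 e.2).1 (QA.bas _ b)) : AA hF h1) k) =
          if p = 0 then (if b = k then 1 else 0) else 0 := by
      have h7 : ∀ f : Fin (X.dim + 1) → RR X,
          ∑ a, hh X a k * ∑ j, gg X a j * f j = f k := by
        intro f
        simp only [Finset.mul_sum]
        rw [Finset.sum_comm]
        have h8 : ∀ j, ∑ a, hh X a k * (gg X a j * f j) = (if j = k then 1 else 0) * f j := by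
          intro j
          rw [← hh_gg j k, Finset.sum_mul]
          refine Finset.sum_congr rfl fun a _ => ?_
          rw [gg_symm a j]
          ring
        simp only [h8]
        simp
      rw [← h7 (fun k => ∑ e ∈ antidiagonal p, (-1) ^ e.1 *
          ((ST hF h1 e.1).1 ((SS hF h1 e.2).1 (QA.bas _ b)) : AA hF h1) k)]
      simp only [h4]
      by_cases hp : p = 0
      · simp only [hp, if_true]
        rw [← hh_gg b k]
        exact Finset.sum_congr rfl fun a _ => by rw [gg_symm a b]
      · simp [hp]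
    rw [h3, h6]
    by_cases hp : p = 0
    · simp only [hp, if_true]
      change _ = (QA.bas (consts hF h1) b : AA hF h1) k
      rw [QA.bas_apply]
      simp only [eq_comm]
    · simp only [hp, if_false]
      rfl
  · rw [Prod.snd_sum]
    have h2 : (if p = 0 then (1 : OO hF h1) else 0).2 = if p = 0 then 1 else 0 := by
      split_ifs <;> rfl
    rw [h2]
    funext v
    obtain ⟨w, hvw⟩ := exists_form_ne v
    have h3 : (∑ e ∈ antidiagonal p, ((-1 : RR X) ^ e.1 • (ST hF h1 e.1 * SS hF h1 e.2)).2) v =
        ∑ e ∈ antidiagonal p, (-1) ^ e.1 * ((SS hF h1 e.1).2 v * (SS hF h1 e.2).2 v) := by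
      rw [Finset.sum_apply]
      refine Finset.sum_congr rfl fun e _ => ?_
      have h4 : (ST hF h1 e.1).2 v = (SS hF h1 e.1).2 v := by
        cases e.1 with
        | zero => rfl
        | succ n => rfl
      change (-1) ^ e.1 * ((ST hF h1 e.1).2 v * (SS hF h1 e.2).2 v) = _
      rw [h4]
    have h5 := alt_string hF (Sum.inr v) (Sum.inr w) p
    have h6 : ∀ e : ℕ × ℕ, (-1) ^ e.1 *
        ser (cor F 0 [hpow X 0, (Sum.inr v, e.1), (Sum.inr w, e.2)]) =
        X.form v w • ((-1) ^ e.1 * ((SS hF h1 e.1).2 v * (SS hF h1 e.2).2 v)) := by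
      intro e
      rw [W_trr_prim hF h1, lamc_zero hF h1 v, mul_one, mul_smul_comm]
    simp only [h6] at h5
    rw [← Finset.smul_sum, ← h3] at h5
    have h7 := congrArg (fun z => (X.form v w)⁻¹ • z) h5
    simp only [inv_smul_smul₀ hvw] at h7
    rw [h7]
    by_cases hp : p = 0
    · simp only [hp, if_true]
      have h8 : pairing X (Sum.inr v) (Sum.inr w) = X.form v w := rfl
      rw [h8, H598.smul_RR, kst_mul, inv_mul_cancel₀ hvw]
      unfold H598.kst
      simp
    · simp [hp]

/-- **[ZB3]** unitarity: string equation and topological recursion, then a power series with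
constant term one has a two-sided inverse -/
theorem SS_ST (p : ℕ) : ∑ e ∈ antidiagonal p, (-1) ^ e.2 * (SZ hF h1 e.1 * ST hF h1 e.2) =
    if p = 0 then 1 else 0 := by
  let S : PowerSeries (OO hF h1) := PowerSeries.mk fun n => SS hF h1 n
  let T : PowerSeries (OO hF h1) := PowerSeries.mk fun n => (-1) ^ n * ST hF h1 n
  have hTS : T * S = 1 := by
    ext n : 1
    rw [PowerSeries.coeff_mul, PowerSeries.coeff_one, ← ST_SS hF h1 n]
    refine Finset.sum_congr rfl fun e _ => ?_
    rw [PowerSeries.coeff_mk, PowerSeries.coeff_mk, mul_assoc]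
  have hS0 : PowerSeries.constantCoeff S = ((1 : (OO hF h1)ˣ) : OO hF h1) := by
    rw [← PowerSeries.coeff_zero_eq_constantCoeff_apply, PowerSeries.coeff_mk]
    rfl
  have h2 := PowerSeries.mul_invOfUnit S 1 hS0
  have h3 : T = PowerSeries.invOfUnit S 1 := by
    calc T = T * (S * PowerSeries.invOfUnit S 1) := by rw [h2, mul_one]
      _ = PowerSeries.invOfUnit S 1 := by rw [← mul_assoc, hTS, one_mul]
  rw [← h3] at h2
  have h4 := congrArg (PowerSeries.coeff p) h2
  rw [PowerSeries.coeff_mul, PowerSeries.coeff_one] at h4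
  rw [← h4]
  refine Finset.sum_congr rfl fun e _ => ?_
  rw [PowerSeries.coeff_mk, PowerSeries.coeff_mk]
  have h5 : SZ hF h1 (e.1 : ℤ) = SS hF h1 e.1 := by
    rw [SZ, if_neg (by omega), Int.toNat_natCast]
  rw [h5, ← mul_assoc, ← mul_assoc]
  congr 1
  rcases Nat.even_or_odd e.2 with h | h
  · rw [h.neg_one_pow, one_mul, mul_one]
  · rw [h.neg_one_pow, neg_one_mul, mul_neg_one]

end Vale.Agent.P269.G1.H410
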